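import Vale.Agent.P318.H454.Low

/-!
# Degrees along sums of directions
-/

namespace Vale.Agent.P318.H454

open Finset Vale.Agent.P318.S Polynomial
open scoped BigOperators

section interp

variable {F : Type*} [Field F] [Fintype F]

theorem low_of_card_le {d : ℕ} (hd : Fintype.card F ≤ d + 1) (h : F → F) : Low d h := by
  classical
  rw [low_iff_poly]
  refine ⟨Lagrange.interpolate univ id h, ?_, fun u => ?_⟩
  · have hdeg := Lagrange.degree_interpolate_lt (s := (univ : Finset F)) (v := id) h
      (Set.injOn_id _)
    rw [Finset.card_univ] at hdeg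
    by_cases h0 : Lagrange.interpolate (univ : Finset F) id h = 0
    · rw [h0]; simp
    · have := (Polynomial.natDegree_lt_iff_degree_lt h0).2 hdeg
      omega
  · exact (Lagrange.eval_interpolate_at_node h (Set.injOn_id _) (Finset.mem_univ u)).symm

theorem exists_interp {d : ℕ} (hd : d + 1 ≤ Fintype.card F) :
    ∃ (x : Fin (d + 1) → F) (l : Fin (d + 1) → F → F), (∀ k, Low d (l k)) ∧
      ∀ h : F → F, Low d h → ∀ u, h u = ∑ k, l k u * h (x k) := by
  classical
  obtain ⟨x⟩ : Nonempty (Fin (d + 1) ↪ F) :=
    Function.Embedding.nonempty_of_card_le (by simpa using hd)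
  refine ⟨x, fun k u => (Lagrange.basis univ x k).eval u, fun k => ?_, fun h hh u => ?_⟩
  · rw [low_iff_poly]
    refine ⟨Lagrange.basis univ x k, ?_, fun u => rfl⟩
    have := Lagrange.natDegree_basis (s := univ) (v := x) x.injective.injOn (Finset.mem_univ k)
    rw [this]
    simp
  · rw [low_iff_poly] at hh
    obtain ⟨P, hP, hu⟩ := hh
    have hdeg : P.degree < (univ : Finset (Fin (d + 1))).card := by
      rw [Finset.card_univ, Fintype.card_fin]
      exact lt_of_le_of_lt Polynomial.degree_le_natDegree (by exact_mod_cast Nat.lt_succ_of_le hP)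
    have h1 := Lagrange.eq_interpolate (s := univ) (v := x) x.injective.injOn hdeg
    rw [hu u]
    conv_lhs => rw [h1]
    rw [Lagrange.interpolate_apply, eval_finsetSum]
    refine Finset.sum_congr rfl fun k _ => ?_
    rw [eval_C_mul, hu, mul_comm]

end interp

section dircalc

variable {F : Type*} [Field F]
variable {Y : Type*} [AddCommGroup Y] [Module F Y]

/-- The function `f` has degree at most `d` along all lines in direction `r`. -/
def DA (f : Y → F) (r : Y) (d : ℕ) : Prop := ∀ y, Low d fun u : F => f (y + u • r)

theorem DA.mono {f : Y → F} {r : Y} {d e : ℕ} (h : DA f r d) (hde : d ≤ e) : DA f r e :=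
  fun y => low_mono (h y) hde

theorem DA.zero_dir (f : Y → F) : DA f 0 0 := by
  intro y
  simp only [smul_zero, add_zero]
  exact low_const 0 _

theorem DA.mul {f g : Y → F} {r : Y} {d e : ℕ} (hf : DA f r d) (hg : DA g r e) :
    DA (fun y => f y * g y) r (d + e) := fun y => low_mul (hf y) (hg y)

theorem DA.add {f g : Y → F} {r : Y} {d : ℕ} (hf : DA f r d) (hg : DA g r d) :
    DA (fun y => f y + g y) r d := fun y => low_add (hf y) (hg y)

theorem DA.sum {α : Type*} (S : Finset α) {f : α → Y → F} {r : Y} {d : ℕ}
    (hf : ∀ a ∈ S, DA (f a) r d) : DA (fun y => ∑ a ∈ S, f a y) r d :=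
  fun y => low_sum S fun a ha => hf a ha y

theorem DA.const_mul {f : Y → F} {r : Y} {d : ℕ} (c : F) (hf : DA f r d) :
    DA (fun y => c * f y) r d := fun y => low_const_mul c (hf y)

theorem DA.const (c : F) (r : Y) (d : ℕ) : DA (fun _ : Y => c) r d := fun _ => low_const d c

theorem DA.smul_dir {f : Y → F} {r : Y} {d : ℕ} (hf : DA f r d) (c : F) : DA f (c • r) d := by
  intro y
  have h := hf y
  rw [low_iff_poly] at h ⊢
  obtain ⟨P, hP, hu⟩ := h
  refine ⟨P.comp (C c * X), ?_, fun u => ?_⟩
  · refine natDegree_comp_le.trans ?_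
    have h1 : (C c * X : F[X]).natDegree ≤ 1 := by
      have := natDegree_C_mul_X_pow_le c 1
      rwa [pow_one] at this
    calc P.natDegree * (C c * X).natDegree ≤ P.natDegree * 1 :=
          Nat.mul_le_mul_left _ h1
      _ ≤ d := by omega
  · have h1 := hu (c * u)
    rw [eval_comp, eval_mul, eval_C, eval_X, ← h1, smul_smul, mul_comm u c]

/-- Pulling a function back along a linear map. -/
theorem DA.comp {V : Type*} [AddCommGroup V] [Module F V] (A : Y →ₗ[F] V) {g : V → F} {r : Y}
    {d : ℕ} (hg : DA g (A r) d) : DA (fun y => g (A y)) r d := by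
  intro y
  have := hg (A y)
  simpa only [map_add, map_smul] using this

variable [Fintype F]

theorem DA.add_dir {f : Y → F} {r r' : Y} {d d' : ℕ} (h : DA f r d) (h' : DA f r' d') :
    DA f (r + r') (d + d') := by
  intro y
  by_cases hd : d + 1 ≤ Fintype.card F
  · by_cases hd' : d' + 1 ≤ Fintype.card F
    · obtain ⟨x, l, hl, hx⟩ := exists_interp hd
      obtain ⟨x', l', hl', hx'⟩ := exists_interp hd'
      have key : ∀ u : F, f (y + u • (r + r')) =
          ∑ k, ∑ k', l k u * l' k' u * f (y + x k • r + x' k' • r') := by
        intro u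
        have e1 : f (y + u • (r + r')) = f ((y + u • r) + u • r') := by
          rw [smul_add, add_assoc]
        rw [e1, hx' _ (h' (y + u • r)) u]
        have e2 : ∀ k', f (y + u • r + x' k' • r') =
            ∑ k, l k u * f (y + x k • r + x' k' • r') := by
          intro k'
          have := hx _ (h (y + x' k' • r')) u
          rw [show y + u • r + x' k' • r' = y + x' k' • r' + u • r by abel, this]
          refine Finset.sum_congr rfl fun k _ => ?_
          rw [show y + x' k' • r' + x k • r = y + x k • r + x' k' • r' by abel]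
        simp only [e2, Finset.mul_sum]
        rw [Finset.sum_comm]
        refine Finset.sum_congr rfl fun k _ => Finset.sum_congr rfl fun k' _ => ?_
        ring
      simp only [key]
      refine low_sum _ fun k _ => low_sum _ fun k' _ => ?_
      have := low_mul (low_mul (hl k) (hl' k')) (low_const 0 (f (y + x k • r + x' k' • r')))
      simpa using this
    · exact low_of_card_le (by omega) _
  · exact low_of_card_le (by omega) _

theorem DA.sum_dir {α : Type*} (S : Finset α) {f : Y → F} {r : α → Y} {d : ℕ}
    (h : ∀ a ∈ S, DA f (r a) d) : DA f (∑ a ∈ S, r a) (#S * d) := by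
  classical
  induction S using Finset.induction_on with
  | empty => simpa using DA.zero_dir f
  | insert a S ha ih =>
    rw [Finset.sum_insert ha, Finset.card_insert_of_notMem ha, add_mul, one_mul, add_comm _ d]
    exact (h a (Finset.mem_insert_self _ _)).add_dir
      (ih fun b hb => h b (Finset.mem_insert_of_mem hb))

end dircalc

end Vale.Agent.P318.H454
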