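import Vale.Agent.P318.S.Defs

/-!
# Calculus of `Low`, and the exact sums of honest words
-/

namespace Vale.Agent.P318.H454

open Finset Vale.Agent.P318.S Polynomial
open scoped BigOperators

section low

variable {F : Type*} [Field F]

theorem low_iff_poly {d : ℕ} {h : F → F} :
    Low d h ↔ ∃ P : F[X], P.natDegree ≤ d ∧ ∀ u, h u = P.eval u := by
  constructor
  · rintro ⟨p, hp⟩
    refine ⟨∑ j : Fin (d + 1), C (p j) * X ^ (j : ℕ), ?_, ?_⟩
    · refine Polynomial.natDegree_sum_le_of_forall_le _ _ fun j _ => ?_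
      exact (natDegree_C_mul_X_pow_le _ _).trans (by have := j.2; omega)
    · intro u
      rw [hp u, crv, eval_finsetSum]
      refine Finset.sum_congr rfl fun j _ => ?_
      rw [eval_C_mul, eval_pow, eval_X, smul_eq_mul, mul_comm]
  · rintro ⟨P, hP, h'⟩
    refine ⟨fun j => P.coeff j, fun u => ?_⟩
    rw [h' u, crv, eval_eq_sum_range' (Nat.lt_succ_of_le hP), Finset.sum_range]
    refine Finset.sum_congr rfl fun j _ => ?_
    rw [smul_eq_mul, mul_comm]

theorem low_pi {ρ : Type*} {d : ℕ} {h : F → ρ → F} :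
    Low d h ↔ ∀ j, Low d fun u => h u j := by
  constructor
  · rintro ⟨p, hp⟩ j
    refine ⟨fun i => p i j, fun u => ?_⟩
    simp only [hp u, crv, Finset.sum_apply, Pi.smul_apply]
  · intro H
    choose p hp using H
    refine ⟨fun i j => p j i, fun u => ?_⟩
    ext j
    simp only [crv, Finset.sum_apply, Pi.smul_apply]
    exact hp j u

theorem low_mono {d d' : ℕ} {h : F → F} (hd : Low d h) (hdd : d ≤ d') : Low d' h := by
  rw [low_iff_poly] at *
  obtain ⟨P, hP, hu⟩ := hd
  exact ⟨P, hP.trans hdd, hu⟩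

theorem low_const (d : ℕ) (c : F) : Low d fun _ : F => c :=
  low_iff_poly.2 ⟨C c, by simp, by simp⟩

theorem low_add {d : ℕ} {h g : F → F} (hh : Low d h) (hg : Low d g) :
    Low d fun u => h u + g u := by
  rw [low_iff_poly] at *
  obtain ⟨P, hP, hu⟩ := hh
  obtain ⟨Q, hQ, hv⟩ := hg
  exact ⟨P + Q, natDegree_add_le_of_degree_le hP hQ, fun u => by rw [hu, hv, eval_add]⟩

theorem low_mul {d e : ℕ} {h g : F → F} (hh : Low d h) (hg : Low e g) :
    Low (d + e) fun u => h u * g u := by
  rw [low_iff_poly] at *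
  obtain ⟨P, hP, hu⟩ := hh
  obtain ⟨Q, hQ, hv⟩ := hg
  exact ⟨P * Q, natDegree_mul_le.trans (by omega), fun u => by rw [hu, hv, eval_mul]⟩

theorem low_const_mul {d : ℕ} (c : F) {h : F → F} (hh : Low d h) :
    Low d fun u => c * h u := by
  have := low_mul (low_const 0 c) hh
  rwa [zero_add] at this

theorem low_sum {α : Type*} (S : Finset α) {d : ℕ} {h : α → F → F} (hh : ∀ a ∈ S, Low d (h a)) :
    Low d fun u => ∑ a ∈ S, h a u := by
  classical
  induction S using Finset.induction_on with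
  | empty => simpa using low_const d (0 : F)
  | insert a S ha ih =>
    simp only [Finset.sum_insert ha]
    exact low_add (hh a (Finset.mem_insert_self _ _))
      (ih fun b hb => hh b (Finset.mem_insert_of_mem hb))

theorem low_crv {ρ : Type*} {D : ℕ} (C : Fin (D + 1) → ρ → F) (j : ρ) :
    Low D fun u : F => crv C u j :=
  low_pi.1 (⟨C, fun _ => rfl⟩ : Low D fun u : F => crv C u) j

theorem crv_zero {M : Type*} [AddCommGroup M] [Module F M] {D : ℕ} (C : Fin (D + 1) → M) :
    crv C (0 : F) = C 0 := by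
  rw [crv, Fin.sum_univ_succ]
  simp

variable [Fintype F]

theorem low_sum_eq_zero {d : ℕ} {h : F → F} (hh : Low d h) (hd : d + 2 ≤ Fintype.card F) :
    ∑ u : F, h u = 0 := by
  obtain ⟨p, hp⟩ := hh
  simp only [hp, crv, smul_eq_mul]
  rw [Finset.sum_comm]
  refine Finset.sum_eq_zero fun j _ => ?_
  rw [← Finset.sum_mul, FiniteField.sum_pow_lt_card_sub_one F (j : ℕ) (by have := j.2; omega),
    zero_mul]

end low

section word

variable {F Y ι ρ : Type*} [Field F] [Fintype F] [AddCommGroup Y] [Module F Y] [Fintype ρ]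

/-- The curve test never fails on a word of low degree. -/
theorem tsum_word (φ : F →+ ZMod 2) (b : Y → ZMod 2) (s : Y → ρ → F) {D d : ℕ}
    (hd : D + d + 2 ≤ Fintype.card F) (r y : Y) (hb : ∑ u : F, b (y + u • r) = 0)
    (hs : Low d fun u : F => s (y + u • r)) (C : Fin (D + 1) → ρ → F) :
    S.tsum F (word φ b s) r y C = 0 := by
  have h1 : ∑ u : F, ∑ j, crv C u j * s (y + u • r) j = 0 := by
    refine low_sum_eq_zero (d := D + d) ?_ hd
    exact low_sum _ fun j _ => low_mul (low_crv C j) (low_pi.1 hs j)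
  simp only [S.tsum, word, Finset.sum_add_distrib, hb, zero_add]
  rw [← map_sum, h1, map_zero]

variable [DecidableEq F]

theorem sum_ne_zero (g : F → ZMod 2) (h : ∑ u : F, g u = 0) :
    ∑ u : {u : F // u ≠ 0}, g u = g 0 := by
  have h1 : ∑ u : F, g u = g 0 + ∑ u ∈ univ.filter (fun u : F => u ≠ 0), g u := by
    rw [← Finset.sum_filter_add_sum_filter_not univ (fun u : F => u = 0)]
    congr 1
    rw [Finset.filter_eq' univ (0 : F), if_pos (Finset.mem_univ _), Finset.sum_singleton]
  have h2 : ∑ u ∈ univ.filter (fun u : F => u ≠ 0), g u = ∑ u : {u : F // u ≠ 0}, g u :=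
    Finset.sum_subtype (univ.filter (fun u : F => u ≠ 0)) (fun x => by simp) g
  rw [← h2]
  rw [h1] at h
  have := CharTwo.add_eq_zero.1 h
  exact this.symm

/-- The value of a READ on a word of low degree. -/
theorem rdSum_word (φ : F →+ ZMod 2) (b : Y → ZMod 2) (s : Y → ρ → F) {D d : ℕ}
    (hd : D + d + 2 ≤ Fintype.card F) (r : ι → Y) (y : Y) (cst : ρ → F) (i : Fin 2 → ι)
    (hb : ∀ l, ∑ u : F, b (y + u • r (i l)) = 0)
    (hs : ∀ l, Low d fun u : F => s (y + u • r (i l)))
    (C : Fin 2 → Fin D → ρ → F) (c : ρ → F) :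
    rdSum (word φ b s) r y cst i C c = φ (∑ j, cst j * s y j) := by
  have key : ∀ l : Fin 2, ∀ A : Fin (D + 1) → ρ → F,
      ∑ u : {u : F // u ≠ 0}, word φ b s (y + (u : F) • r (i l)) (crv A (u : F)) =
        word φ b s y (A 0) := by
    intro l A
    have := tsum_word φ b s hd (r (i l)) y (hb l) (hs l) A
    rw [S.tsum] at this
    rw [sum_ne_zero (fun u => word φ b s (y + u • r (i l)) (crv A u)) this]
    simp [crv_zero]
  rw [rdSum, Fintype.sum_prod_type, Fin.sum_univ_two]
  simp only [rdPos]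
  have k0 := key 0 (Fin.cons (cst + c) (C 0))
  have k1 := key 1 (Fin.cons c (C 1))
  have h10 : ((1 : Fin 2) = 0) = False := by simp
  simp only [h10, if_false, if_true]
  rw [k0, k1]
  simp only [Fin.cons_zero, word, Pi.add_apply]
  simp only [add_mul, Finset.sum_add_distrib, map_add]
  have hb2 : b y + b y = 0 := CharTwo.add_self_eq_zero _
  have hc2 : φ (∑ j, c j * s y j) + φ (∑ j, c j * s y j) = 0 := CharTwo.add_self_eq_zero _
  linear_combination hb2 + hc2

end word

end Vale.Agent.P318.H454
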