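import Vale.Agent.P318.S.Mid
import Vale.Agent.P318.H866.Noise
import Vale.Agent.P318.H454.Low

/-!
# The honest table (block S5)
-/

namespace Vale.Agent.P318.H454

open Finset Vale.Agent.P318.S
open scoped BigOperators

/-! ### The components -/

section comps

variable {F V Z K : Type*} [Field F] [Fintype Z]

/-- The extension of the table `g`. -/
def hf (g : Z → F) (del : Z → V → F) (v : V) : F := ∑ z, g z * del z v

/-- The certificate coefficients of `del a * hf`. -/
def hg (g : Z → F) (h : Z → Z → K → V → F) (a : Z) (k : K) (v : V) : F := ∑ w, g w * h a w k v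

/-- The honest quotients of the certificate functions. -/
def hq (g : Z → F) (del : Z → V → F) (h : Z → Z → K → V → F) (e : Z × Z × Z) (k : K)
    (y : Fin 3 → V) (b : Fin 3) : F :=
  if b = 0 then hg g h e.1 k (y 0) * (del e.2.1 (y 1) * hf g del (y 1)) * del e.2.2 (y 2)
  else if b = 1 then g e.1 * (del e.1 (y 0) * hg g h e.2.1 k (y 1) * del e.2.2 (y 2))
  else del e.1 (y 0) * del e.2.1 (y 1) * hg g h e.2.2 k (y 2)

/-- The honest components. -/
def hs (g : Z → F) (del : Z → V → F) (h : Z → Z → K → V → F) (sys : Finset (Z × Z × Z))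
    (y : Fin 3 → V) : Comp K → F
  | Sum.inl j => ![1, hf g del (y 0), hf g del (y 1), hf g del (y 2),
      hf g del (y 0) * hf g del (y 1)] j
  | Sum.inr p => ∑ e ∈ sys, hq g del h e p.2 y p.1

variable [DecidableEq Z] [Fintype K]

theorem del_mul_hf (g : Z → F) {del : Z → V → F} {zf : K → V → F} {h : Z → Z → K → V → F}
    (hc : ∀ z w v, del z v * del w v = (if z = w then del z v else 0) + ∑ k, zf k v * h z w k v)
    (a : Z) (v : V) :
    del a v * hf g del v = g a * del a v + ∑ k, zf k v * hg g h a k v := by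
  have e : ∀ w, del a v * (g w * del w v) =
      (if a = w then g a * del a v else 0) + ∑ k, zf k v * (g w * h a w k v) := by
    intro w
    rw [mul_left_comm, hc a w v, mul_add, Finset.mul_sum]
    congr 1
    · by_cases haw : a = w
      · subst haw; simp
      · simp [haw]
    · exact Finset.sum_congr rfl fun k _ => by ring
  simp only [hf, hg, Finset.mul_sum, e, Finset.sum_add_distrib]
  rw [Finset.sum_ite_eq, if_pos (Finset.mem_univ a), Finset.sum_comm]

variable [CharP F 2]

/-- The identity of the certificate. -/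
theorem hs_identity (g : Z → F) {del : Z → V → F} {zf : K → V → F} {h : Z → Z → K → V → F}
    (hc : ∀ z w v, del z v * del w v = (if z = w then del z v else 0) + ∑ k, zf k v * h z w k v)
    (sys : Finset (Z × Z × Z)) (bet : Z × Z × Z → F)
    (hgs : ∀ e ∈ sys, g e.1 * g e.2.1 + g e.2.2 = bet e) (y : Fin 3 → V) :
    psi1 del sys bet y * hs g del h sys y (Sum.inl 0) +
      psi del sys y * hs g del h sys y (Sum.inl 3) + psi del sys y * hs g del h sys y (Sum.inl 4) +
      ∑ p : Fin 3 × K, zf p.2 (y p.1) * hs g del h sys y (Sum.inr p) = 0 := by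
  have c2 : (2 : F) = 0 := CharTwo.two_eq_zero
  have hs0 : hs g del h sys y (Sum.inl 0) = 1 := rfl
  have hs3 : hs g del h sys y (Sum.inl 3) = hf g del (y 2) := rfl
  have hs4 : hs g del h sys y (Sum.inl 4) = hf g del (y 0) * hf g del (y 1) := rfl
  have n1 : (1 : Fin 3) ≠ 0 := by decide
  have n2 : (2 : Fin 3) ≠ 0 := by decide
  have n3 : (2 : Fin 3) ≠ 1 := by decide
  rw [hs0, hs3, hs4, Fintype.sum_prod_type, Fin.sum_univ_three]
  have k0 : ∑ k : K, zf k (y 0) * hs g del h sys y (Sum.inr (0, k)) =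
      ∑ e ∈ sys, (∑ k, zf k (y 0) * hg g h e.1 k (y 0)) *
        (del e.2.1 (y 1) * hf g del (y 1)) * del e.2.2 (y 2) := by
    simp only [hs, hq, if_true, Finset.mul_sum, Finset.sum_mul]
    rw [Finset.sum_comm]
    exact Finset.sum_congr rfl fun e _ => Finset.sum_congr rfl fun k _ => by ring
  have k1 : ∑ k : K, zf k (y 1) * hs g del h sys y (Sum.inr (1, k)) =
      ∑ e ∈ sys, g e.1 * (del e.1 (y 0) * (∑ k, zf k (y 1) * hg g h e.2.1 k (y 1)) *
        del e.2.2 (y 2)) := by
    simp only [hs, hq, if_neg n1, if_true, Finset.mul_sum, Finset.sum_mul]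
    rw [Finset.sum_comm]
    exact Finset.sum_congr rfl fun e _ => Finset.sum_congr rfl fun k _ => by ring
  have k2 : ∑ k : K, zf k (y 2) * hs g del h sys y (Sum.inr (2, k)) =
      ∑ e ∈ sys, del e.1 (y 0) * del e.2.1 (y 1) *
        (∑ k, zf k (y 2) * hg g h e.2.2 k (y 2)) := by
    simp only [hs, hq, if_neg n2, if_neg n3, Finset.mul_sum]
    rw [Finset.sum_comm]
    exact Finset.sum_congr rfl fun e _ => Finset.sum_congr rfl fun k _ => by ring
  have p1 : psi1 del sys bet y * 1 = ∑ e ∈ sys, bet e * del3 del e y := mul_one _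
  have p2 : ∀ x : F, psi del sys y * x = ∑ e ∈ sys, del3 del e y * x := fun x =>
    Finset.sum_mul _ _ _
  rw [k0, k1, k2, p1, p2, p2]
  simp only [← Finset.sum_add_distrib]
  refine Finset.sum_eq_zero fun e he => ?_
  rw [del3]
  have E0 := del_mul_hf g hc e.1 (y 0)
  have E1 := del_mul_hf g hc e.2.1 (y 1)
  have E2 := del_mul_hf g hc e.2.2 (y 2)
  rw [← hgs e he]
  generalize (∑ k, zf k (y 0) * hg g h e.1 k (y 0)) = S0 at *
  generalize (∑ k, zf k (y 1) * hg g h e.2.1 k (y 1)) = S1 at *
  generalize (∑ k, zf k (y 2) * hg g h e.2.2 k (y 2)) = S2 at *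
  generalize hf g del (y 0) = F0 at *
  generalize hf g del (y 1) = F1 at *
  generalize hf g del (y 2) = F2 at *
  generalize del e.1 (y 0) = d0 at *
  generalize del e.2.1 (y 1) = d1 at *
  generalize del e.2.2 (y 2) = d2 at *
  generalize g e.1 = ga at *
  generalize g e.2.1 = gb at *
  generalize g e.2.2 = gc at *
  linear_combination (d1 * F1 * d2) * E0 + (ga * d0 * d2) * E1 + (d0 * d1) * E2 +
    ((ga * gb + gc) * d0 * d1 * d2 + d0 * d1 * S2 + ga * d0 * S1 * d2 + S0 * d1 * F1 * d2) * c2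

end comps

/-! ### Degrees -/

section deg

variable {F V Z K : Type*} [Field F] [AddCommGroup V] [Module F V] [Fintype Z]

theorem hs_low {t : ℕ} {del : Z → V → F} {h : Z → Z → K → V → F} {r : Fin 3 → V}
    (hd : ∀ z b v, Low t fun u : F => del z (v + u • r b))
    (hh : ∀ z w k b v, Low (3 * t) fun u : F => h z w k (v + u • r b))
    (g : Z → F) (sys : Finset (Z × Z × Z)) (y : Fin 3 → V) :
    Low (6 * t) fun u : F => hs g del h sys (y + u • r) := by
  have dd : ∀ z b, Low t fun u : F => del z ((y + u • r) b) := fun z b => hd z b (y b)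
  have df : ∀ b, Low t fun u : F => hf g del ((y + u • r) b) := fun b =>
    low_sum _ fun z _ => low_const_mul _ (dd z b)
  have dg : ∀ a k b, Low (3 * t) fun u : F => hg g h a k ((y + u • r) b) := fun a k b =>
    low_sum _ fun w _ => low_const_mul _ (hh a w k b (y b))
  rw [low_pi]
  rintro (j | ⟨b, k⟩)
  · fin_cases j
    · exact low_const _ _
    · exact low_mono (df 0) (by omega)
    · exact low_mono (df 1) (by omega)
    · exact low_mono (df 2) (by omega)
    · exact low_mono (low_mul (df 0) (df 1)) (by omega)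
  · refine low_sum _ fun e _ => ?_
    have n1 : (1 : Fin 3) ≠ 0 := by decide
    have n2 : (2 : Fin 3) ≠ 0 := by decide
    have n3 : (2 : Fin 3) ≠ 1 := by decide
    fin_cases b
    · simp only [hq, Fin.zero_eta, if_true]
      exact low_mono (low_mul (low_mul (dg e.1 k 0) (low_mul (dd e.2.1 1) (df 1))) (dd e.2.2 2))
        (by omega)
    · simp only [hq, Fin.mk_one, if_neg n1, if_true]
      exact low_mono (low_const_mul _ (low_mul (low_mul (dd e.1 0) (dg e.2.1 k 1)) (dd e.2.2 2)))
        (by omega)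
    · simp only [hq, Fin.reduceFinMk, if_neg n2, if_neg n3]
      exact low_mono (low_mul (low_mul (dd e.1 0) (dd e.2.1 1)) (dg e.2.2 k 2)) (by omega)

end deg

/-! ### The honest table -/

section honest

variable {F V ι Z K : Type*} [Field F] [Fintype F] [DecidableEq F] [CharP F 2]
  [AddCommGroup V] [Module F V] [Fintype V] [DecidableEq V] [Fintype ι] [Nonempty ι]
  [Fintype Z] [DecidableEq Z] [Fintype K] [DecidableEq K]

theorem ind_zero : ind 0 = 0 := by simp [ind]

omit [CharP F 2] in
theorem noise (φ : F →+ ZMod 2) (hφ : φ ≠ 0) {q : ℕ} (hq : Fintype.card F = q) (x y : F) :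
    𝔼 a : Fin 2 → F, 𝔼 b : Fin 2 → F,
      ind (φ (a 0 * b 0 + a 1 * b 0 * x + a 0 * b 1 * y + a 1 * b 1 * (x * y))) =
      (1 / 2 : ℝ) * (1 - 1 / q) := by
  have h := H866.noise_two φ hφ x y (x * y)
  rw [if_pos rfl] at h
  have hF : (0 : ℝ) < q := by rw [← hq]; exact_mod_cast Fintype.card_pos
  have e1 : ∀ a b : Fin 2 → F, (if φ (a 0 * b 0 + a 0 * b 1 * y + a 1 * b 0 * x +
      a 1 * b 1 * (x * y)) = 1 then 1 else 0 : ℝ) =
      ind (φ (a 0 * b 0 + a 1 * b 0 * x + a 0 * b 1 * y + a 1 * b 1 * (x * y))) := by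
    intro a b
    have : a 0 * b 0 + a 0 * b 1 * y + a 1 * b 0 * x + a 1 * b 1 * (x * y) =
        a 0 * b 0 + a 1 * b 0 * x + a 0 * b 1 * y + a 1 * b 1 * (x * y) := by ring
    rw [this, ind]
    rcases H866.zmod2_cases (φ (a 0 * b 0 + a 1 * b 0 * x + a 0 * b 1 * y + a 1 * b 1 * (x * y)))
      with h0 | h0 <;> rw [h0] <;> simp
  simp only [e1] at h
  simp only [Finset.expect_eq_sum_div_card, Finset.card_univ, Fintype.card_pi, Finset.prod_const,
    Finset.card_univ, Fintype.card_fin]
  rw [← Finset.sum_div, div_div, ← hq]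
  rw [show ((Fintype.card F ^ 2 : ℕ) : ℝ) * ((Fintype.card F ^ 2 : ℕ) : ℝ) =
    (Fintype.card F : ℝ) ^ 4 by push_cast; ring, h]
  ring

omit [Fintype F] [DecidableEq F] [CharP F 2] in
theorem sum_cst1 (a b : Fin 2 → F) (s : Comp K → F) :
    ∑ j, cst1 a b j * s j =
      a 0 * b 0 * s cOne + a 1 * b 0 * s (cF 0) + a 0 * b 1 * s (cF 1) + a 1 * b 1 * s cH := by
  simp only [cst1, add_mul, ite_mul, zero_mul, Finset.sum_add_distrib, Finset.sum_ite_eq',
    Finset.mem_univ, if_true]

omit [Fintype F] [DecidableEq F] [CharP F 2] in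
theorem sum_cstE (γ : F) (i : Comp K) (s : Comp K → F) : ∑ j, cstE γ i j * s j = γ * s i := by
  simp [cstE, Pi.single_apply]

omit [Fintype F] [DecidableEq F] [CharP F 2] [AddCommGroup V] [Module F V] [Fintype V]
  [DecidableEq V] [Fintype Z] [DecidableEq Z] [DecidableEq K] in
theorem sum_cst2 (del : Z → V → F) (zf : K → V → F) (sys : Finset (Z × Z × Z))
    (bet : Z × Z × Z → F) (γ : F) (y : Fin 3 → V) (s : Comp K → F) :
    ∑ j, cst2 del zf sys bet γ y j * s j =
      γ * (psi1 del sys bet y * s (Sum.inl 0) + psi del sys y * s (Sum.inl 3) +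
        psi del sys y * s (Sum.inl 4) + ∑ p : Fin 3 × K, zf p.2 (y p.1) * s (Sum.inr p)) := by
  rw [Fintype.sum_sum_type]
  simp only [cst2]
  rw [mul_add, Finset.mul_sum]
  congr 1
  · simp only [Fin.sum_univ_five]
    simp
    ring
  · exact Finset.sum_congr rfl fun p _ => by ring

omit [DecidableEq V] in
/-- **The honest table**, for arbitrary directions in `Fin 3 → V`. -/
theorem honest_core (φ : F →+ ZMod 2) (hφ : φ ≠ 0) {q D t : ℕ} (hq : Fintype.card F = q)
    {del : Z → V → F} {zf : K → V → F} {r : ι → Fin 3 → V}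
    (hdel : ∀ z i b v, Low t fun u : F => del z (v + u • r i b))
    (hcert : ∀ z w, ∃ h : K → V → F,
      (∀ k i b v, Low (3 * t) fun u : F => h k (v + u • r i b)) ∧
      ∀ v, del z v * del w v = (if z = w then del z v else 0) + ∑ k, zf k v * h k v)
    (hD : D + 2 + 6 * t ≤ q) (sys : Finset (Z × Z × Z))
    (bet : Z × Z × Z → F) (hyes : Solv1 sys bet) :
    ∃ σ : (Fin 3 → V) → (Comp K → F) → ZMod 2, Bal σ ∧ eps F D r σ = 0 ∧
      V1 D r σ = (1 / 2 : ℝ) * (1 - 1 / q) ∧ V2 D r del zf sys bet σ = 0 ∧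
      (∀ b, V3 D r b σ = 0) ∧ V4 D φ r σ = 0 := by
  obtain ⟨g, hg⟩ := hyes
  choose h hh hc using hcert
  have hlow : ∀ i y, Low (6 * t) fun u : F => hs g del h sys (y + u • r i) := fun i y =>
    hs_low (fun z b v => hdel z i b v) (fun z w k b v => hh z w k i b v) g sys y
  have hdeg : D + 6 * t + 2 ≤ Fintype.card F := by omega
  have hb0 : ∀ (i : ι) (y : Fin 3 → V), ∑ u : F, (fun _ : Fin 3 → V => (0 : ZMod 2)) (y + u • r i) = 0 :=
    fun _ _ => by simp
  have hrd : ∀ (y : Fin 3 → V) (cst : Comp K → F) (ω : RSeed ι F K D),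
      rd (word φ (fun _ => 0) (hs g del h sys)) r y cst ω =
        φ (∑ j, cst j * hs g del h sys y j) := fun y cst ω =>
    rdSum_word φ _ _ hdeg r y cst ω.1 (fun l => hb0 (ω.1 l) y) (fun l => hlow (ω.1 l) y) ω.2.1
      ω.2.2
  refine ⟨word φ (fun _ => 0) (hs g del h sys), ?_, ?_, ?_, ?_, ?_, ?_⟩
  · intro y
    let χ : (Comp K → F) →+ ZMod 2 :=
      { toFun := fun c => φ (∑ j, c j * hs g del h sys y j)
        map_zero' := by simp
        map_add' := fun c c' => by
          simp only [Pi.add_apply, add_mul, Finset.sum_add_distrib, map_add] }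
    have hχ : χ ≠ 0 := by
      intro h0
      apply hφ
      ext γ
      have := DFunLike.congr_fun h0 (cstE γ cOne)
      change φ (∑ j, cstE γ cOne j * hs g del h sys y j) = 0 at this
      rw [sum_cstE] at this
      have e1 : hs g del h sys y cOne = 1 := rfl
      rw [e1, mul_one] at this
      simpa using this
    have := H866.sum_sg_eq_zero χ hχ
    rw [Finset.expect_eq_sum_div_card]
    have e2 : ∑ c : Comp K → F, sgn (word φ (fun _ => 0) (hs g del h sys) y c) =
        ∑ c, H866.sg (χ c) := by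
      refine Finset.sum_congr rfl fun c _ => ?_
      simp only [word, zero_add]
      rfl
    rw [e2, this, zero_div]
  · simp only [eps, epsDir, epsAt, bad]
    have : ∀ i y C, S.tsum F (word φ (fun _ => 0) (hs g del h sys)) (r i) y C = 0 :=
      fun i y C => tsum_word φ _ _ hdeg (r i) y (hb0 i y) (hlow i y) C
    simp only [this, ind_zero, Finset.expect_const_zero]
  · have key : ∀ y : Fin 3 → V, 𝔼 a : Fin 2 → F, 𝔼 b : Fin 2 → F, 𝔼 ω : RSeed ι F K D,
        ind (rd (word φ (fun _ => 0) (hs g del h sys)) r y (cst1 a b) ω) =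
        (1 / 2 : ℝ) * (1 - 1 / q) := by
      intro y
      rw [← noise φ hφ hq (hf g del (y 0)) (hf g del (y 1))]
      refine Finset.expect_congr rfl fun a _ => Finset.expect_congr rfl fun b _ => ?_
      simp only [hrd, sum_cst1]
      rw [Finset.expect_const Finset.univ_nonempty]
      congr 2
      have e1 : hs g del h sys y cOne = 1 := rfl
      have e2 : hs g del h sys y (cF 0) = hf g del (y 0) := rfl
      have e3 : hs g del h sys y (cF 1) = hf g del (y 1) := rfl
      have e4 : hs g del h sys y cH = hf g del (y 0) * hf g del (y 1) := rfl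
      rw [e1, e2, e3, e4, mul_one]
    simp only [V1, key]
    exact Finset.expect_const Finset.univ_nonempty _
  · simp only [V2, hrd, sum_cst2, hs_identity g hc sys bet hg, mul_zero, map_zero, ind_zero,
      Finset.expect_const_zero]
  · intro b
    have e1 : ∀ y : Fin 3 → V, hs g del h sys y (cF b) = hf g del (y b) := by
      intro y
      fin_cases b <;> rfl
    have e2 : ∀ x y : Fin 3 → V, sh b y x b = y b := by
      intro x y
      simp [sh]
    have e3 : ∀ x : ZMod 2, x + x = 0 := fun x => CharTwo.add_self_eq_zero x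
    simp only [V3, hrd, sum_cstE, e1, e2, e3, ind_zero, Finset.expect_const_zero]
  · have e1 : ∀ y : Fin 3 → V, hs g del h sys y cOne = 1 := fun _ => rfl
    have e3 : ∀ x : ZMod 2, x + x = 0 := fun x => CharTwo.add_self_eq_zero x
    simp only [V4, hrd, sum_cstE, e1, mul_one, e3, ind_zero, Finset.expect_const_zero]

omit [DecidableEq V] in
/-- **The honest table.** -/
theorem honest (φ : F →+ ZMod 2) (hφ : φ ≠ 0) {q D t : ℕ} (hq : Fintype.card F = q)
    {lam : ℝ} {pt : Z → V} {del : Z → V → F} {zf : K → V → F} {r : ι → V}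
    (hG : GeoOK t lam pt del zf r) (hD : D + 2 + 6 * t ≤ q) (sys : Finset (Z × Z × Z))
    (bet : Z × Z × Z → F) (hyes : Solv1 sys bet) :
    ∃ σ : (Fin 3 → V) → (Comp K → F) → ZMod 2, Bal σ ∧ eps F D (dir3 r) σ = 0 ∧
      V1 D (dir3 r) σ = (1 / 2 : ℝ) * (1 - 1 / q) ∧ V2 D (dir3 r) del zf sys bet σ = 0 ∧
      (∀ b, V3 D (dir3 r) b σ = 0) ∧ V4 D φ (dir3 r) σ = 0 := by
  refine honest_core φ hφ hq (t := t) (fun z i b v => hG.del_low z (i b) v) (fun z w => ?_) hD
    sys bet hyes
  obtain ⟨h, h1, h2⟩ := hG.cert z w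
  exact ⟨h, fun k i b v => h1 k (i b) v, h2⟩

end honest

end Vale.Agent.P318.H454
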